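import Mathlib
import Vale.Agent.Lib.P243.R3.Defs
open MeasureTheory Set
open scoped Pointwise

/-!
# P243 (r_3 push): `Ahat` under affine maps and homotheties

`M1d_Ahat_aff`: `Ahat (aff L v '' K) (L w) = |det L| * Ahat K w`.
`M1e_Ahat_hom`: `Ahat (hom c r '' K) (r • w) = r ^ 3 * Ahat K w` for `0 < r`.
No hypothesis on `K` is needed.
-/

namespace Vale.Agent.Lib.P243.R3

/-- Membership in a segment starting at `0`. -/
theorem M1d_mem_segment_zero (w s : E3) :
    s ∈ segment ℝ (0 : E3) w ↔ ∃ t : ℝ, 0 ≤ t ∧ t ≤ 1 ∧ t • w = s := by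
  rw [segment_eq_image]
  constructor
  · rintro ⟨t, ht, rfl⟩
    exact ⟨t, ht.1, ht.2, by simp⟩
  · rintro ⟨t, h0, h1, rfl⟩
    exact ⟨t, ⟨h0, h1⟩, by simp⟩

/-- The image of a sum with a segment from `0` under `aff L v`. -/
theorem M1d_aff_image_add (L : E3 ≃L[ℝ] E3) (v : E3) (K : Set E3) (w : E3) :
    aff L v '' K + segment ℝ (0 : E3) (L w) = aff L v '' (K + segment ℝ (0 : E3) w) := by
  ext y
  constructor
  · rintro ⟨_, ⟨k, hk, rfl⟩, s, hs, rfl⟩
    obtain ⟨t, h0, h1, rfl⟩ := (M1d_mem_segment_zero _ _).1 hs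
    refine ⟨k + t • w, ⟨k, hk, t • w, (M1d_mem_segment_zero _ _).2 ⟨t, h0, h1, rfl⟩, rfl⟩, ?_⟩
    simp only [aff, map_add, map_smul]
    abel
  · rintro ⟨_, ⟨k, hk, s, hs, rfl⟩, rfl⟩
    obtain ⟨t, h0, h1, rfl⟩ := (M1d_mem_segment_zero _ _).1 hs
    refine ⟨aff L v k, ⟨k, hk, rfl⟩, t • L w,
      (M1d_mem_segment_zero _ _).2 ⟨t, h0, h1, rfl⟩, ?_⟩
    simp only [aff, map_add, map_smul]
    abel

/-- The volume of an image under `aff L v`. -/
theorem M1d_volume_aff_image (L : E3 ≃L[ℝ] E3) (v : E3) (X : Set E3) :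
    volume (aff L v '' X) = ENNReal.ofReal |LinearMap.det (L : E3 →ₗ[ℝ] E3)| * volume X := by
  have h1 : aff L v '' X = (fun y : E3 => y + v) '' (L '' X) := by
    rw [image_image]
    rfl
  rw [h1, image_add_right, measure_preimage_add_right,
    Measure.addHaar_image_continuousLinearEquiv]

theorem M1d_Ahat_aff (L : E3 ≃L[ℝ] E3) (v : E3) (K : Set E3) (w : E3) :
    Ahat (aff L v '' K) (L w) = |LinearMap.det (L : E3 →ₗ[ℝ] E3)| * Ahat K w := by
  unfold Ahat
  rw [M1d_aff_image_add, M1d_volume_aff_image, M1d_volume_aff_image, ENNReal.toReal_mul,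
    ENNReal.toReal_mul, ENNReal.toReal_ofReal (abs_nonneg _)]
  ring

/-- `hom c r` is the homothety of ratio `r` about `c`. -/
theorem M1e_hom_eq_homothety (c : E3) (r : ℝ) : hom c r = AffineMap.homothety c r := by
  funext x
  simp only [hom, AffineMap.homothety_apply, vsub_eq_sub, vadd_eq_add]
  abel

/-- The image of a sum with a segment from `0` under `hom c r`. -/
theorem M1e_hom_image_add (c : E3) (r : ℝ) (K : Set E3) (w : E3) :
    hom c r '' K + segment ℝ (0 : E3) (r • w) = hom c r '' (K + segment ℝ (0 : E3) w) := by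
  ext y
  constructor
  · rintro ⟨_, ⟨k, hk, rfl⟩, s, hs, rfl⟩
    obtain ⟨t, h0, h1, rfl⟩ := (M1d_mem_segment_zero _ _).1 hs
    refine ⟨k + t • w, ⟨k, hk, t • w, (M1d_mem_segment_zero _ _).2 ⟨t, h0, h1, rfl⟩, rfl⟩, ?_⟩
    simp only [hom, smul_sub, smul_add, smul_comm r t w]
    abel
  · rintro ⟨_, ⟨k, hk, s, hs, rfl⟩, rfl⟩
    obtain ⟨t, h0, h1, rfl⟩ := (M1d_mem_segment_zero _ _).1 hs
    refine ⟨hom c r k, ⟨k, hk, rfl⟩, t • r • w,
      (M1d_mem_segment_zero _ _).2 ⟨t, h0, h1, rfl⟩, ?_⟩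
    simp only [hom, smul_sub, smul_add, smul_comm r t w]
    abel

/-- The volume of an image under `hom c r`, `0 < r`. -/
theorem M1e_volume_hom_image (c : E3) {r : ℝ} (hr : 0 < r) (X : Set E3) :
    volume (hom c r '' X) = ENNReal.ofReal (r ^ 3) * volume X := by
  rw [M1e_hom_eq_homothety, Measure.addHaar_image_homothety]
  have h3 : Module.finrank ℝ E3 = 3 := by simp
  rw [h3, abs_of_pos (pow_pos hr 3)]

theorem M1e_Ahat_hom (c : E3) {r : ℝ} (hr : 0 < r) (K : Set E3) (w : E3) :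
    Ahat (hom c r '' K) (r • w) = r ^ 3 * Ahat K w := by
  unfold Ahat
  rw [M1e_hom_image_add, M1e_volume_hom_image c hr, M1e_volume_hom_image c hr,
    ENNReal.toReal_mul, ENNReal.toReal_mul, ENNReal.toReal_ofReal (pow_pos hr 3).le]
  ring

end Vale.Agent.Lib.P243.R3
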