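import Mathlib
import Vale.Agent.Lib.P243.Defs
import Vale.Agent.Lib.P243.R3.Defs
import Vale.Agent.Lib.P243.R3.M0
import Vale.Agent.Lib.P243.Coord2

/-!
# P243, `r_3 > 1/3`, module M2: the dual-measure lemma

A calibration `g` of a convex body `K` with constant `Θ` forces every finite covering of `K` by
cylinders to have sum of base-area ratios at least `1 / Θ`.  The identity
`Ahat K w = ‖w‖ * area (projection of K along w)` is taken as the explicit hypothesis `hA`.
-/

namespace Vale.Agent.Lib.P243.R3.H99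

open MeasureTheory Set Vale.Agent.Lib.P243 Vale.Agent.Lib.P243.R3
open scoped Pointwise

/-- The integral of `g` over a chord in the direction `u`, times the area of the projection,
is at most `Θ` times the integral of `g` over `K`. -/
theorem M2_fibre_real
    (hA : ∀ (K : Set E3), IsCompact K → Convex ℝ K → K.Nonempty → ∀ (a b : E3), OrthoPair a b →
      ∀ w : E3, inner ℝ w a = 0 → inner ℝ w b = 0 →
      Ahat K w = ‖w‖ * (volume (planeCoords a b '' K)).toReal)
    {K : Set E3} (hK : Body K) {g : E3 → ℝ} {Θ : ℝ} (hG : Good K g Θ)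
    (a b : E3) (hab : OrthoPair a b) (u : E3) (L : (ℝ × ℝ × ℝ) ≃L[ℝ] E3) (hu : ‖u‖ = 1)
    (hua : inner ℝ u a = 0) (hub : inner ℝ u b = 0)
    (hL : ∀ z : ℝ × ℝ × ℝ, L z = z.1 • u + z.2.1 • a + z.2.2 • b)
    (y : ℝ × ℝ) {t0 t1 : ℝ} (h01 : t0 ≤ t1) (h0 : L (t0, y) ∈ K) (h1 : L (t1, y) ∈ K) :
    (∫ t in t0..t1, g (L (t, y))) * (volume (planeCoords a b '' K)).toReal
      ≤ Θ * ∫ x in K, g x := by
  have hqp : L (t1, y) - L (t0, y) = (t1 - t0) • u := by
    rw [hL, hL, sub_smul]
    abel
  have hnorm : ‖L (t1, y) - L (t0, y)‖ = t1 - t0 := by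
    rw [hqp, norm_smul, hu, mul_one, Real.norm_of_nonneg (sub_nonneg.2 h01)]
  have hAh : Ahat K (L (t1, y) - L (t0, y))
      = (t1 - t0) * (volume (planeCoords a b '' K)).toReal := by
    rw [hA K hK.compact hK.conv (hK.int.mono interior_subset) a b hab _ ?_ ?_, hnorm]
    · rw [hqp, inner_smul_left, hua]
      simp
    · rw [hqp, inner_smul_left, hub]
      simp
  have havg : (t1 - t0) * avgSeg g (L (t0, y)) (L (t1, y)) = ∫ t in t0..t1, g (L (t, y)) := by
    unfold avgSeg
    have e : ∀ s : ℝ, L (t0, y) + s • (L (t1, y) - L (t0, y)) = L ((t1 - t0) * s + t0, y) := by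
      intro s
      rw [hqp, hL, hL, add_smul, mul_smul, smul_comm s (t1 - t0) u]
      abel
    simp_rw [e]
    have h := intervalIntegral.mul_integral_comp_mul_add (a := 0) (b := 1)
      (f := fun t => g (L (t, y))) (t1 - t0) t0
    simpa using h
  have hgood := hG.2.2 _ h0 _ h1
  rw [hAh] at hgood
  calc (∫ t in t0..t1, g (L (t, y))) * (volume (planeCoords a b '' K)).toReal
      = avgSeg g (L (t0, y)) (L (t1, y))
          * ((t1 - t0) * (volume (planeCoords a b '' K)).toReal) := by
        rw [← havg]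
        ring
    _ ≤ Θ * ∫ x in K, g x := hgood

/-- The plane coordinates are continuous. -/
theorem M2_planeCoords_continuous (a b : E3) : Continuous (planeCoords a b) := by
  unfold planeCoords
  fun_prop

/-- The projection of a convex body has positive finite area. -/
theorem M2_area_pos {K : Set E3} (hK : Body K) (a b : E3) (hab : OrthoPair a b) :
    0 < (volume (planeCoords a b '' K)).toReal :=
  ENNReal.toReal_pos (volume_planeCoords_pos K hK.int a b hab).ne'
    (hK.compact.image (M2_planeCoords_continuous a b)).measure_lt_top.ne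

/-- The integral of the density over one fibre of the chart. -/
theorem M2_fibre_lintegral
    (hA : ∀ (K : Set E3), IsCompact K → Convex ℝ K → K.Nonempty → ∀ (a b : E3), OrthoPair a b →
      ∀ w : E3, inner ℝ w a = 0 → inner ℝ w b = 0 →
      Ahat K w = ‖w‖ * (volume (planeCoords a b '' K)).toReal)
    {K : Set E3} (hK : Body K) {g : E3 → ℝ} {Θ : ℝ} (hG : Good K g Θ)
    (a b : E3) (hab : OrthoPair a b) (u : E3) (L : (ℝ × ℝ × ℝ) ≃L[ℝ] E3) (hu : ‖u‖ = 1)
    (hua : inner ℝ u a = 0) (hub : inner ℝ u b = 0)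
    (hL : ∀ z : ℝ × ℝ × ℝ, L z = z.1 • u + z.2.1 • a + z.2.2 • b)
    (y : ℝ × ℝ) :
    ∫⁻ t, ({t : ℝ | L (t, y) ∈ K}).indicator (fun t => ENNReal.ofReal (g (L (t, y)))) t
      ≤ ENNReal.ofReal (Θ * (∫ x in K, g x) / (volume (planeCoords a b '' K)).toReal) := by
  set F : Set ℝ := {t : ℝ | L (t, y) ∈ K} with hF
  have hcont : Continuous (fun t : ℝ => L (t, y)) :=
    L.continuous.comp (continuous_id.prodMk continuous_const)
  have hFclosed : IsClosed F := hK.compact.isClosed.preimage hcont
  have hFcomp : IsCompact F :=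
    ((hK.compact.image L.symm.continuous).image continuous_fst).of_isClosed_subset hFclosed
      (fun t ht => ⟨(t, y), ⟨L (t, y), ht, L.symm_apply_apply _⟩, rfl⟩)
  rcases F.eq_empty_or_nonempty with hE | hne
  · rw [hE]
    simp
  · have h0 : L (sInf F, y) ∈ K := hFcomp.sInf_mem hne
    have h1 : L (sSup F, y) ∈ K := hFcomp.sSup_mem hne
    have hsub : F ⊆ Icc (sInf F) (sSup F) :=
      fun t ht => ⟨csInf_le hFcomp.bddBelow ht, le_csSup hFcomp.bddAbove ht⟩
    have h01 : sInf F ≤ sSup F := by
      obtain ⟨t, ht⟩ := hne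
      exact (hsub ht).1.trans (hsub ht).2
    have hint : IntegrableOn (fun t : ℝ => g (L (t, y))) (Icc (sInf F) (sSup F)) volume :=
      (hG.1.comp hcont).integrableOn_Icc
    have hnn : 0 ≤ᵐ[volume.restrict (Icc (sInf F) (sSup F))] fun t : ℝ => g (L (t, y)) :=
      ae_of_all _ (fun t => by
        have := (hG.2.1 (L (t, y))).1
        simp only [Pi.zero_apply]
        linarith)
    calc ∫⁻ t, F.indicator (fun t => ENNReal.ofReal (g (L (t, y)))) t
        ≤ ∫⁻ t, (Icc (sInf F) (sSup F)).indicator (fun t => ENNReal.ofReal (g (L (t, y)))) t :=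
          lintegral_mono (indicator_le_indicator_of_subset hsub (fun _ => bot_le))
      _ = ∫⁻ t in Icc (sInf F) (sSup F), ENNReal.ofReal (g (L (t, y))) :=
          lintegral_indicator measurableSet_Icc _
      _ = ENNReal.ofReal (∫ t in Icc (sInf F) (sSup F), g (L (t, y))) :=
          (ofReal_integral_eq_lintegral_ofReal hint hnn).symm
      _ = ENNReal.ofReal (∫ t in (sInf F)..(sSup F), g (L (t, y))) := by
          rw [intervalIntegral.integral_of_le h01, integral_Icc_eq_integral_Ioc]
      _ ≤ ENNReal.ofReal (Θ * (∫ x in K, g x) / (volume (planeCoords a b '' K)).toReal) := by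
          apply ENNReal.ofReal_le_ofReal
          rw [le_div_iff₀ (M2_area_pos hK a b hab)]
          exact M2_fibre_real hA hK hG a b hab u L hu hua hub hL y h01 h0 h1

/-- The mass of the density over the part of `K` inside one cylinder with measurable base. -/
theorem M2_claim
    (hA : ∀ (K : Set E3), IsCompact K → Convex ℝ K → K.Nonempty → ∀ (a b : E3), OrthoPair a b →
      ∀ w : E3, inner ℝ w a = 0 → inner ℝ w b = 0 →
      Ahat K w = ‖w‖ * (volume (planeCoords a b '' K)).toReal)
    {K : Set E3} (hK : Body K) {g : E3 → ℝ} {Θ : ℝ} (hG : Good K g Θ)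
    (a b : E3) (hab : OrthoPair a b) (W : Set (ℝ × ℝ)) (hW : MeasurableSet W) :
    ∫⁻ x in K ∩ planeCoords a b ⁻¹' W, ENNReal.ofReal (g x)
      ≤ ENNReal.ofReal (Θ * (∫ x in K, g x) / (volume (planeCoords a b '' K)).toReal)
          * volume W := by
  obtain ⟨u, L, hu, hua, hub, hL, hpc, hvol⟩ := M0_chart a b hab
  have hLm : Measurable (L : ℝ × ℝ × ℝ → E3) := L.continuous.measurable
  have hmp : MeasurePreserving (L : ℝ × ℝ × ℝ → E3) volume volume := ⟨hLm, by
    ext B hB
    rw [Measure.map_apply hLm hB, ← hvol (L ⁻¹' B), image_preimage_eq _ L.surjective]⟩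
  have hAm : MeasurableSet (K ∩ planeCoords a b ⁻¹' W) :=
    hK.compact.measurableSet.inter ((M2_planeCoords_continuous a b).measurable hW)
  have hGm : Measurable (fun x : E3 => ENNReal.ofReal (g x)) :=
    ENNReal.measurable_ofReal.comp hG.1.measurable
  have hfm : Measurable (fun z : ℝ × ℝ × ℝ => ENNReal.ofReal (g (L z))) := hGm.comp hLm
  have hprod := lintegral_prod_symm (μ := (volume : Measure ℝ)) (ν := (volume : Measure (ℝ × ℝ)))
    ((L ⁻¹' (K ∩ planeCoords a b ⁻¹' W)).indicator (fun z => ENNReal.ofReal (g (L z))))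
    (hfm.indicator (hLm hAm)).aemeasurable
  rw [← hmp.setLIntegral_comp_preimage hAm hGm, ← lintegral_indicator (hLm hAm),
    Measure.volume_eq_prod, hprod]
  set C : ENNReal :=
    ENNReal.ofReal (Θ * (∫ x in K, g x) / (volume (planeCoords a b '' K)).toReal) with hC
  calc ∫⁻ y, ∫⁻ t, (L ⁻¹' (K ∩ planeCoords a b ⁻¹' W)).indicator
          (fun z => ENNReal.ofReal (g (L z))) (t, y)
      ≤ ∫⁻ y, W.indicator (fun _ => C) y := by
        refine lintegral_mono (fun y => ?_)
        by_cases hy : y ∈ W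
        · rw [indicator_of_mem hy]
          refine le_trans (le_of_eq ?_)
            (M2_fibre_lintegral hA hK hG a b hab u L hu hua hub hL y)
          refine lintegral_congr (fun t => ?_)
          by_cases ht : L (t, y) ∈ K
          · rw [indicator_of_mem (show t ∈ {t : ℝ | L (t, y) ∈ K} from ht),
              indicator_of_mem (show (t, y) ∈ L ⁻¹' (K ∩ planeCoords a b ⁻¹' W) from
                ⟨ht, by rw [mem_preimage, hpc]; exact hy⟩)]
          · rw [indicator_of_notMem (show t ∉ {t : ℝ | L (t, y) ∈ K} from ht),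
              indicator_of_notMem (show (t, y) ∉ L ⁻¹' (K ∩ planeCoords a b ⁻¹' W) from
                fun h => ht h.1)]
        · rw [indicator_of_notMem hy]
          have hz : ∀ t : ℝ, (L ⁻¹' (K ∩ planeCoords a b ⁻¹' W)).indicator
              (fun z => ENNReal.ofReal (g (L z))) (t, y) = 0 := by
            intro t
            apply indicator_of_notMem
            intro h
            have h2 : planeCoords a b (L (t, y)) ∈ W := h.2
            rw [hpc] at h2
            exact hy h2
          rw [lintegral_congr hz, lintegral_zero]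
    _ = C * volume W := lintegral_indicator_const hW C

/-- The dual-measure lemma, with the area formula for `Ahat` as a hypothesis. -/
theorem M2_good_cover_of
    (hA : ∀ (K : Set E3), IsCompact K → Convex ℝ K → K.Nonempty → ∀ (a b : E3), OrthoPair a b →
      ∀ w : E3, inner ℝ w a = 0 → inner ℝ w b = 0 →
      Ahat K w = ‖w‖ * (volume (planeCoords a b '' K)).toReal)
    {K : Set E3} (hK : Body K) {g : E3 → ℝ} {Θ : ℝ} (hΘ : 0 < Θ)
    (hG : Good K g Θ) {m : ℕ} (a b : Fin m → E3) (hab : ∀ i, OrthoPair (a i) (b i))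
    (S : Fin m → Set (ℝ × ℝ)) (hcov : K ⊆ ⋃ i, planeCoords (a i) (b i) ⁻¹' S i) :
    ENNReal.ofReal (1 / Θ) ≤ ∑ i, volume (S i) / volume (planeCoords (a i) (b i) '' K) := by
  set I : ℝ := ∫ x in K, g x with hI
  have hgint : IntegrableOn g K volume := hG.1.continuousOn.integrableOn_compact hK.compact
  have hJ : ∫⁻ x in K, ENNReal.ofReal (g x) = ENNReal.ofReal I :=
    (ofReal_integral_eq_lintegral_ofReal hgint (ae_of_all _ (fun x => by
      have := (hG.2.1 x).1
      simp only [Pi.zero_apply]
      linarith))).symm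
  have hvK : 0 < volume K :=
    lt_of_lt_of_le (isOpen_interior.measure_pos volume hK.int) (measure_mono interior_subset)
  have hvK' : volume K ≠ ⊤ := hK.compact.measure_lt_top.ne
  have hIpos : 0 < I := by
    have h1 : (volume K).toReal ≤ I := by
      have h2 : ∫ _ in K, (1 : ℝ) ≤ ∫ x in K, g x :=
        setIntegral_mono_on (integrableOn_const hvK') hgint hK.compact.measurableSet
          (fun x _ => (hG.2.1 x).1)
      simpa [Measure.real] using h2
    exact lt_of_lt_of_le (ENNReal.toReal_pos hvK.ne' hvK') h1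
  set W : Fin m → Set (ℝ × ℝ) := fun i => toMeasurable volume (S i) with hWdef
  have hcov' : K ⊆ ⋃ i, (K ∩ planeCoords (a i) (b i) ⁻¹' W i) := by
    intro x hx
    obtain ⟨i, hi⟩ := mem_iUnion.1 (hcov hx)
    exact mem_iUnion.2 ⟨i, hx, subset_toMeasurable _ _ hi⟩
  have hsum : ENNReal.ofReal I ≤ ∑ i, ENNReal.ofReal
      (Θ * I / (volume (planeCoords (a i) (b i) '' K)).toReal) * volume (S i) := by
    calc ENNReal.ofReal I = ∫⁻ x in K, ENNReal.ofReal (g x) := hJ.symm
      _ ≤ ∫⁻ x in ⋃ i, (K ∩ planeCoords (a i) (b i) ⁻¹' W i), ENNReal.ofReal (g x) :=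
          lintegral_mono_set hcov'
      _ ≤ ∑' i, ∫⁻ x in K ∩ planeCoords (a i) (b i) ⁻¹' W i, ENNReal.ofReal (g x) :=
          lintegral_iUnion_le _ _
      _ = ∑ i, ∫⁻ x in K ∩ planeCoords (a i) (b i) ⁻¹' W i, ENNReal.ofReal (g x) :=
          tsum_fintype _
      _ ≤ ∑ i, ENNReal.ofReal
            (Θ * I / (volume (planeCoords (a i) (b i) '' K)).toReal) * volume (S i) := by
          refine Finset.sum_le_sum (fun i _ => ?_)
          have h := M2_claim hA hK hG (a i) (b i) (hab i) (W i) (measurableSet_toMeasurable _ _)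
          rwa [measure_toMeasurable] at h
  have hterm : ∀ i, ENNReal.ofReal (Θ * I / (volume (planeCoords (a i) (b i) '' K)).toReal)
      * volume (S i)
      = ENNReal.ofReal (Θ * I) * (volume (S i) / volume (planeCoords (a i) (b i) '' K)) := by
    intro i
    have hfin : volume (planeCoords (a i) (b i) '' K) ≠ ⊤ :=
      (hK.compact.image (M2_planeCoords_continuous (a i) (b i))).measure_lt_top.ne
    rw [ENNReal.ofReal_div_of_pos (M2_area_pos hK (a i) (b i) (hab i)),
      ENNReal.ofReal_toReal hfin, div_eq_mul_inv, div_eq_mul_inv]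
    ring
  simp_rw [hterm] at hsum
  rw [← Finset.mul_sum] at hsum
  have hne0 : ENNReal.ofReal (Θ * I) ≠ 0 := by
    have : 0 < Θ * I := mul_pos hΘ hIpos
    simpa using this
  have hnet : ENNReal.ofReal (Θ * I) ≠ ⊤ := ENNReal.ofReal_ne_top
  have hmul : ENNReal.ofReal (Θ * I) * ENNReal.ofReal (1 / Θ) = ENNReal.ofReal I := by
    rw [← ENNReal.ofReal_mul (mul_pos hΘ hIpos).le]
    congr 1
    field_simp
  refine (ENNReal.mul_le_mul_iff_right hne0 hnet).1 ?_
  rw [hmul]
  exact hsum

end Vale.Agent.Lib.P243.R3.H99
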